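import Mathlib

/-! # P123: polynomial approximation of `1/(z - w)` on a compact convex set -/

open Polynomial Filter Topology

namespace Vale.Agent.P123.H880

/-- uniform limit of polynomials on `K` -/
def PolyLim (K : Set ℂ) (f : ℂ → ℂ) : Prop :=
  ∀ ε : ℝ, 0 < ε → ∃ p : ℂ[X], ∀ z ∈ K, ‖p.eval z - f z‖ ≤ ε

theorem PolyLim.poly (K : Set ℂ) (p : ℂ[X]) : PolyLim K (fun z => p.eval z) :=
  fun ε hε => ⟨p, fun z _ => by simpa using hε.le⟩

theorem PolyLim.mul {K : Set ℂ} {f g : ℂ → ℂ} {M : ℝ} (hf : PolyLim K f) (hg : PolyLim K g)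
    (hM : ∀ z ∈ K, ‖f z‖ ≤ M) (hM' : ∀ z ∈ K, ‖g z‖ ≤ M) : PolyLim K (fun z => f z * g z) := by
  intro ε hε
  rcases K.eq_empty_or_nonempty with h0 | ⟨z0, hz0⟩
  · exact ⟨0, fun z hz => by rw [h0] at hz; exact absurd hz (Set.notMem_empty z)⟩
  have hM0 : 0 ≤ M := (norm_nonneg _).trans (hM z0 hz0)
  set δ : ℝ := min 1 (ε / (2 * M + 1)) with hδ
  have hδ0 : 0 < δ := by positivity
  have hδ1 : δ ≤ 1 := min_le_left _ _
  have hδ2 : δ * (2 * M + 1) ≤ ε := by
    have := min_le_right 1 (ε / (2 * M + 1))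
    rw [← hδ] at this
    rwa [le_div_iff₀ (by positivity)] at this
  obtain ⟨p, hp⟩ := hf δ hδ0
  obtain ⟨q, hq⟩ := hg δ hδ0
  refine ⟨p * q, fun z hz => ?_⟩
  have h1 := hp z hz
  have h2 := hq z hz
  have h3 : ‖p.eval z‖ ≤ M + 1 := by
    calc ‖p.eval z‖ = ‖(p.eval z - f z) + f z‖ := by rw [sub_add_cancel]
      _ ≤ ‖p.eval z - f z‖ + ‖f z‖ := norm_add_le _ _
      _ ≤ 1 + M := add_le_add (h1.trans hδ1) (hM z hz)
      _ = M + 1 := add_comm _ _
  have e : (p * q).eval z - f z * g z =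
      p.eval z * (q.eval z - g z) + (p.eval z - f z) * g z := by
    rw [eval_mul]; ring
  rw [e]
  calc ‖p.eval z * (q.eval z - g z) + (p.eval z - f z) * g z‖
      ≤ ‖p.eval z * (q.eval z - g z)‖ + ‖(p.eval z - f z) * g z‖ := norm_add_le _ _
    _ = ‖p.eval z‖ * ‖q.eval z - g z‖ + ‖p.eval z - f z‖ * ‖g z‖ := by rw [norm_mul, norm_mul]
    _ ≤ (M + 1) * δ + δ * M := by
      gcongr
      exact hM' z hz
    _ = δ * (2 * M + 1) := by ring
    _ ≤ ε := hδ2

/-- `1/(z - w)` is a uniform limit of polynomials on a compact convex set not containing `w`. -/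
theorem PolyLim.inv_sub {K : Set ℂ} (hK : IsCompact K) (hc : Convex ℝ K) {w : ℂ} (hw : w ∉ K) :
    PolyLim K (fun z => (z - w)⁻¹) := by
  intro ε hε
  rcases K.eq_empty_or_nonempty with h0 | hne
  · exact ⟨0, fun z hz => by rw [h0] at hz; exact absurd hz (Set.notMem_empty z)⟩
  -- separation
  obtain ⟨v, hv, hmin⟩ := exists_norm_eq_iInf_of_complete_convex hne hK.isComplete hc w
  have hproj := (norm_eq_iInf_iff_real_inner_le_zero hc hv).1 hmin
  set u : ℂ := w - v with hu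
  have hu0 : u ≠ 0 := by
    intro h
    exact hw (by rw [show w = v from sub_eq_zero.1 h]; exact hv)
  have hun : 0 < ‖u‖ := norm_pos_iff.2 hu0
  -- for z in K: <u, z - w> ≤ -‖u‖^2
  have hsep : ∀ z ∈ K, inner ℝ u (z - w) ≤ -‖u‖ ^ 2 := by
    intro z hz
    have h1 := hproj z hz
    have h2 : z - w = (z - v) - u := by rw [hu]; ring
    rw [h2, inner_sub_right, real_inner_self_eq_norm_sq]
    linarith
  obtain ⟨R, hR0, hR⟩ : ∃ R : ℝ, 0 < R ∧ ∀ z ∈ K, ‖z - w‖ ≤ R := by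
    have hb : Bornology.IsBounded ((fun z => z - w) '' K) :=
      (hK.image (by fun_prop)).isBounded
    obtain ⟨R, hR0, hR⟩ := hb.exists_pos_norm_le
    exact ⟨R, hR0, fun z hz => hR _ ⟨z, hz, rfl⟩⟩
  -- centre c = w - s u, s large
  set s : ℝ := R ^ 2 / ‖u‖ ^ 2 + 1 with hs
  have hs0 : 0 < s := by positivity
  have hsR : R ^ 2 ≤ s * ‖u‖ ^ 2 := by
    rw [hs, add_mul, div_mul_cancel₀ _ (by positivity)]
    nlinarith [sq_nonneg ‖u‖]
  set c : ℂ := w - (s : ℂ) * u with hcdef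
  have hwc : w - c = (s : ℂ) * u := by rw [hcdef]; ring
  have hwc0 : w - c ≠ 0 := by
    rw [hwc]; exact mul_ne_zero (by exact_mod_cast hs0.ne') hu0
  have hnwc : ‖w - c‖ = s * ‖u‖ := by
    rw [hwc, norm_mul, Complex.norm_real, Real.norm_of_nonneg hs0.le]
  -- distance estimate
  have hdist : ∀ z ∈ K, ‖z - c‖ ^ 2 ≤ (s ^ 2 - s) * ‖u‖ ^ 2 := by
    intro z hz
    have e1 : z - c = (z - w) + (s : ℝ) • u := by
      rw [hcdef, Complex.real_smul]; ring
    rw [e1, norm_add_sq_real, real_inner_smul_right, norm_smul, Real.norm_of_nonneg hs0.le]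
    have h1 := hsep z hz
    rw [real_inner_comm] at h1
    have h2 := hR z hz
    have h3 : ‖z - w‖ ^ 2 ≤ R ^ 2 := pow_le_pow_left₀ (norm_nonneg _) h2 2
    nlinarith
  set ρ : ℝ := Real.sqrt (1 - 1 / s) with hρ
  have hs1 : 1 ≤ s := by rw [hs]; have : 0 ≤ R ^ 2 / ‖u‖ ^ 2 := by positivity
                         linarith
  have hρ0 : 0 ≤ ρ := Real.sqrt_nonneg _
  have hρ1 : ρ < 1 := by
    rw [hρ, Real.sqrt_lt' one_pos]
    have : 0 < 1 / s := by positivity
    linarith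
  have hq : ∀ z ∈ K, ‖(z - c) / (w - c)‖ ≤ ρ := by
    intro z hz
    rw [norm_div, hρ]
    apply Real.le_sqrt_of_sq_le
    rw [div_pow, hnwc, div_le_iff₀ (by positivity)]
    have := hdist z hz
    have e2 : (1 - 1 / s) * (s * ‖u‖) ^ 2 = (s ^ 2 - s) * ‖u‖ ^ 2 := by
      field_simp
    rw [e2]; exact this
  -- geometric sums
  have htend : Tendsto (fun n : ℕ => ρ ^ n / (‖w - c‖ * (1 - ρ))) atTop (𝓝 0) := by
    have := (tendsto_pow_atTop_nhds_zero_of_lt_one hρ0 hρ1).div_const (‖w - c‖ * (1 - ρ))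
    simpa using this
  obtain ⟨n, hn⟩ := (htend.eventually (gt_mem_nhds hε)).exists
  refine ⟨∑ i ∈ Finset.range n, C (-(w - c)⁻¹) * (C ((w - c)⁻¹) * (X - C c)) ^ i, fun z hz => ?_⟩
  set t : ℂ := (z - c) / (w - c) with ht
  have htn := hq z hz
  have ht1 : t ≠ 1 := by
    intro h
    rw [← ht, h] at htn
    rw [norm_one] at htn
    linarith
  have h1t : 1 - t ≠ 0 := sub_ne_zero.2 (Ne.symm ht1)
  have hev : (∑ i ∈ Finset.range n, C (-(w - c)⁻¹) * (C ((w - c)⁻¹) * (X - C c)) ^ i).eval z =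
      -(w - c)⁻¹ * ∑ i ∈ Finset.range n, t ^ i := by
    rw [eval_finsetSum, Finset.mul_sum]
    refine Finset.sum_congr rfl fun i _ => ?_
    simp only [eval_mul, eval_C, eval_pow, eval_sub, eval_X]
    rw [ht, div_eq_inv_mul]
  have hzw : z - w = -(w - c) * (1 - t) := by
    rw [ht]; field_simp; ring
  have hgeo : ∑ i ∈ Finset.range n, t ^ i = (1 - t ^ n) / (1 - t) := by
    rw [eq_div_iff h1t, mul_comm]
    exact mul_neg_geom_sum t n
  rw [hev, hgeo]
  beta_reduce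
  rw [hzw]
  have e3 : -(w - c)⁻¹ * ((1 - t ^ n) / (1 - t)) - (-(w - c) * (1 - t))⁻¹ =
      t ^ n / ((w - c) * (1 - t)) := by
    field_simp
    ring
  rw [e3, norm_div, norm_pow, norm_mul]
  have h5 : 1 - ρ ≤ ‖1 - t‖ := by
    calc 1 - ρ ≤ ‖(1 : ℂ)‖ - ‖t‖ := by rw [norm_one]; linarith
      _ ≤ ‖1 - t‖ := norm_sub_norm_le _ _
  have h6 : 0 < 1 - ρ := by linarith
  have h7 : 0 < ‖w - c‖ := norm_pos_iff.2 hwc0
  calc ‖t‖ ^ n / (‖w - c‖ * ‖1 - t‖) ≤ ρ ^ n / (‖w - c‖ * (1 - ρ)) := by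
        gcongr
    _ ≤ ε := hn.le

/-- `1/Q` is a uniform limit of polynomials on a compact convex set without zeros of `Q`. -/
theorem PolyLim.inv_poly {K : Set ℂ} (hK : IsCompact K) (hc : Convex ℝ K) (Q : ℂ[X])
    (hQ : ∀ z ∈ K, Q.eval z ≠ 0) : PolyLim K (fun z => (Q.eval z)⁻¹) := by
  rcases K.eq_empty_or_nonempty with h0 | hne
  · exact fun ε _ => ⟨0, fun z hz => by rw [h0] at hz; exact absurd hz (Set.notMem_empty z)⟩
  have hQ0 : Q ≠ 0 := by
    rintro rfl
    obtain ⟨z, hz⟩ := hne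
    exact hQ z hz (by simp)
  have hsplit := IsAlgClosed.splits Q
  have hfac : ∀ s : Multiset ℂ, (∀ w ∈ s, w ∉ K) →
      PolyLim K (fun z => ((s.map (fun w => z - w)).prod)⁻¹) ∧
      ∃ M : ℝ, ∀ z ∈ K, ‖((s.map (fun w => z - w)).prod)⁻¹‖ ≤ M := by
    intro s
    induction s using Multiset.induction_on with
    | empty =>
      intro _
      refine ⟨fun ε hε => ⟨1, fun z _ => by simpa using hε.le⟩, 1, fun z _ => by simp⟩
    | cons w s ih =>
      intro hs
      obtain ⟨h1, M, hM⟩ := ih (fun w' hw' => hs w' (Multiset.mem_cons_of_mem hw'))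
      have hw := hs w (Multiset.mem_cons_self w s)
      obtain ⟨M', hM'⟩ : ∃ M' : ℝ, ∀ z ∈ K, ‖(z - w)⁻¹‖ ≤ M' := by
        have hcont : ContinuousOn (fun z : ℂ => (z - w)⁻¹) K := by
          apply ContinuousOn.inv₀ (by fun_prop)
          intro z hz h
          exact hw (by rw [← sub_eq_zero.1 h]; exact hz)
        exact hK.exists_bound_of_continuousOn hcont
      set B := max M M'
      have h2 : PolyLim K (fun z => (z - w)⁻¹ * ((s.map (fun w => z - w)).prod)⁻¹) :=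
        PolyLim.mul (M := B) (PolyLim.inv_sub hK hc hw) h1
          (fun z hz => (hM' z hz).trans (le_max_right _ _))
          (fun z hz => (hM z hz).trans (le_max_left _ _))
      have e : (fun z => (((w ::ₘ s).map (fun w => z - w)).prod)⁻¹) =
          (fun z => (z - w)⁻¹ * ((s.map (fun w => z - w)).prod)⁻¹) := by
        funext z
        rw [Multiset.map_cons, Multiset.prod_cons, mul_inv]
      rw [e]
      refine ⟨h2, M' * M, fun z hz => ?_⟩
      rw [Multiset.map_cons, Multiset.prod_cons, mul_inv, norm_mul]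
      have := hM z hz
      have h3 := hM' z hz
      have h4 : 0 ≤ M' := (norm_nonneg _).trans h3
      gcongr
  have hroots : ∀ w ∈ Q.roots, w ∉ K := by
    intro w hw hwK
    exact hQ w hwK (by simpa using (mem_roots hQ0).1 hw)
  obtain ⟨h1, M, hM⟩ := hfac Q.roots hroots
  have hev : ∀ z, Q.eval z = Q.leadingCoeff * (Q.roots.map (fun w => z - w)).prod := by
    intro z
    conv_lhs => rw [hsplit.eq_prod_roots]
    rw [eval_mul, eval_C, eval_multiset_prod, Multiset.map_map]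
    simp
  have h3 : PolyLim K (fun z => (C (Q.leadingCoeff)⁻¹ : ℂ[X]).eval z *
      ((Q.roots.map (fun w => z - w)).prod)⁻¹) := by
    apply PolyLim.mul (M := max M ‖(Q.leadingCoeff)⁻¹‖) (PolyLim.poly K _) h1
    · intro z _; rw [eval_C]; exact le_max_right _ _
    · intro z hz; exact (hM z hz).trans (le_max_left _ _)
  have e : (fun z => (Q.eval z)⁻¹) = (fun z => (C (Q.leadingCoeff)⁻¹ : ℂ[X]).eval z *
      ((Q.roots.map (fun w => z - w)).prod)⁻¹) := by
    funext z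
    rw [hev, mul_inv, eval_C]
  rw [e]; exact h3

end Vale.Agent.P123.H880
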