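import Vale.Agent.P123.Bdl.B2
import Vale.Agent.P123.H880.Approx

/-! # P123: Crouzeix's inequality for rational functions -/

open Polynomial Filter Topology

namespace Vale.Agent.P123.H880

variable {H : Type*} [NormedAddCommGroup H] [InnerProductSpace ℂ H] [CompleteSpace H]

theorem norm_le_of_mem {A : H →L[ℂ] H} {z : ℂ} (hz : z ∈ numRange A) : ‖z‖ ≤ ‖A‖ := by
  obtain ⟨x, hx, rfl⟩ := hz
  calc ‖inner ℂ x (A x)‖ ≤ ‖x‖ * ‖A x‖ := norm_inner_le_norm _ _
    _ ≤ ‖x‖ * (‖A‖ * ‖x‖) := by gcongr; exact A.le_opNorm x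
    _ = ‖A‖ := by rw [hx]; ring

theorem compact_cl (A : H →L[ℂ] H) : IsCompact (closure (numRange A)) := by
  apply Bornology.IsBounded.isCompact_closure
  rw [isBounded_iff_forall_norm_le]
  exact ⟨‖A‖, fun z hz => norm_le_of_mem hz⟩

theorem bound_of_le [Nontrivial H] (A : H →L[ℂ] H) (P : ℂ[X]) {m : ℝ}
    (h : ∀ z ∈ closure (numRange A), ‖P.eval z‖ ≤ m) : ‖aeval A P‖ ≤ 2 * m := by
  have hne : (numRange A).Nonempty := by
    obtain ⟨x, hx⟩ := exists_norm_eq H zero_le_one
    exact ⟨_, x, hx, rfl⟩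
  refine (crouzeix_bound A P).trans ?_
  have : sSup ((fun z => ‖P.eval z‖) '' numRange A) ≤ m := by
    apply csSup_le (hne.image _)
    rintro _ ⟨z, hz, rfl⟩
    exact h z (subset_closure hz)
  linarith

theorem rational_bound [Nontrivial H] (A : H →L[ℂ] H) (P Q : ℂ[X])
    (hQ : ∀ z ∈ closure (numRange A), Q.eval z ≠ 0) :
    ∃ B : H →L[ℂ] H, B * aeval A Q = 1 ∧ aeval A Q * B = 1 ∧
      ‖aeval A P * B‖ ≤ 2 * sSup ((fun z => ‖P.eval z / Q.eval z‖) '' numRange A) := by
  set K := closure (numRange A) with hKdef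
  have hK : IsCompact K := compact_cl A
  have hc : Convex ℝ K := (convex_numRange A).closure
  have hne : (numRange A).Nonempty := by
    obtain ⟨x, hx⟩ := exists_norm_eq H zero_le_one
    exact ⟨_, x, hx, rfl⟩
  obtain ⟨MQ, hMQ⟩ := hK.exists_bound_of_continuousOn (Q.continuous.continuousOn)
  obtain ⟨MP, hMP⟩ := hK.exists_bound_of_continuousOn (P.continuous.continuousOn)
  have hinv := PolyLim.inv_poly hK hc Q hQ
  obtain ⟨z0, hz0⟩ := hne.closure
  have hMQ0 : 0 ≤ MQ := (norm_nonneg _).trans (hMQ z0 hz0)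
  have hMP0 : 0 ≤ MP := (norm_nonneg _).trans (hMP z0 hz0)
  -- key: for small ε, Q(A) q(A) is close to one
  have key : ∀ ε : ℝ, 0 < ε → ∃ q : ℂ[X], (∀ z ∈ K, ‖q.eval z - (Q.eval z)⁻¹‖ ≤ ε) ∧
      ‖1 - aeval A Q * aeval A q‖ ≤ 2 * (MQ * ε) := by
    intro ε hε
    obtain ⟨q, hq⟩ := hinv ε hε
    refine ⟨q, hq, ?_⟩
    have e : 1 - aeval A Q * aeval A q = aeval A (1 - Q * q) := by simp
    rw [e]
    apply bound_of_le
    intro z hz
    have h1 : (1 - Q * q).eval z = -(Q.eval z * (q.eval z - (Q.eval z)⁻¹)) := by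
      rw [eval_sub, eval_mul, eval_one, mul_sub, mul_inv_cancel₀ (hQ z hz)]; ring
    rw [h1, norm_neg, norm_mul]
    exact mul_le_mul (hMQ z hz) (hq z hz) (norm_nonneg _) hMQ0
  have hcomm : ∀ p q : ℂ[X], aeval A p * aeval A q = aeval A q * aeval A p := by
    intro p q
    rw [← map_mul, ← map_mul, mul_comm]
  have hunit : IsUnit (aeval A Q) := by
    obtain ⟨q, -, hq⟩ := key (1 / (4 * (MQ + 1))) (by positivity)
    have h2 : 2 * (MQ * (1 / (4 * (MQ + 1)))) < 1 := by
      have : MQ * (1 / (4 * (MQ + 1))) ≤ 1 / 4 := by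
        rw [mul_one_div, div_le_div_iff₀ (by positivity) (by norm_num)]
        linarith
      linarith
    have h3 : IsUnit (aeval A Q * aeval A q) := by
      have := isUnit_one_sub_of_norm_lt_one (hq.trans_lt h2)
      simpa using this
    exact (Commute.isUnit_mul_iff (hcomm Q q)).1 h3 |>.1
  obtain ⟨U, hU⟩ := hunit
  refine ⟨((U⁻¹ : (H →L[ℂ] H)ˣ) : H →L[ℂ] H), ?_, ?_, ?_⟩
  · rw [← hU]; exact U.inv_mul
  · rw [← hU]; exact U.mul_inv
  set B : H →L[ℂ] H := ((U⁻¹ : (H →L[ℂ] H)ˣ) : H →L[ℂ] H) with hB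
  have hBQ : B * aeval A Q = 1 := by rw [← hU]; exact U.inv_mul
  set S : ℝ := sSup ((fun z => ‖P.eval z / Q.eval z‖) '' numRange A) with hS
  have hbdd : BddAbove ((fun z => ‖P.eval z / Q.eval z‖) '' numRange A) := by
    have hcont : ContinuousOn (fun z => ‖P.eval z / Q.eval z‖) K := by
      apply ContinuousOn.norm
      exact P.continuous.continuousOn.div Q.continuous.continuousOn hQ
    have := (hK.image_of_continuousOn hcont).bddAbove
    exact this.mono (Set.image_mono subset_closure)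
  have hSle : ∀ z ∈ K, ‖P.eval z / Q.eval z‖ ≤ S := by
    intro z hz
    have hcl : IsClosed ({z | z ∈ K ∧ ‖P.eval z / Q.eval z‖ ≤ S}) := by
      have hcont : ContinuousOn (fun z => ‖P.eval z / Q.eval z‖) K := by
        apply ContinuousOn.norm
        exact P.continuous.continuousOn.div Q.continuous.continuousOn hQ
      exact hcont.preimage_isClosed_of_isClosed isClosed_closure (isClosed_Iic (a := S))
    have hsub : closure (numRange A) ⊆ {z | z ∈ K ∧ ‖P.eval z / Q.eval z‖ ≤ S} := by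
      apply closure_minimal _ hcl
      intro y hy
      exact ⟨subset_closure hy, le_csSup hbdd ⟨y, hy, rfl⟩⟩
    exact (hsub hz).2
  -- limiting argument
  have hfin : ∀ ε : ℝ, 0 < ε → ‖aeval A P * B‖ ≤
      2 * S + ε * (2 * MP + 2 * MQ * ‖aeval A P * B‖) := by
    intro ε hε
    obtain ⟨q, hq1, hq2⟩ := key ε hε
    have e1 : aeval A P * B = aeval A P * aeval A q + aeval A P * B * (1 - aeval A Q * aeval A q) := by
      calc aeval A P * B = aeval A P * ((B * aeval A Q) * aeval A q) +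
            aeval A P * B * (1 - aeval A Q * aeval A q) := by noncomm_ring
        _ = _ := by rw [hBQ, one_mul]
    have h1 : ‖aeval A P * aeval A q‖ ≤ 2 * (S + MP * ε) := by
      rw [← map_mul]
      apply bound_of_le
      intro z hz
      have e2 : (P * q).eval z = P.eval z / Q.eval z + P.eval z * (q.eval z - (Q.eval z)⁻¹) := by
        rw [eval_mul, div_eq_mul_inv]; ring
      rw [e2]
      refine (norm_add_le _ _).trans (add_le_add (hSle z hz) ?_)
      rw [norm_mul]
      exact mul_le_mul (hMP z hz) (hq1 z hz) (norm_nonneg _) hMP0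
    calc ‖aeval A P * B‖ = ‖aeval A P * aeval A q +
          aeval A P * B * (1 - aeval A Q * aeval A q)‖ := by rw [← e1]
      _ ≤ ‖aeval A P * aeval A q‖ + ‖aeval A P * B * (1 - aeval A Q * aeval A q)‖ :=
        norm_add_le _ _
      _ ≤ 2 * (S + MP * ε) + ‖aeval A P * B‖ * (2 * (MQ * ε)) := by
        gcongr
        exact (norm_mul_le _ _).trans (by gcongr)
      _ = _ := by ring
  refine le_of_forall_pos_le_add fun δ hδ => ?_
  set N : ℝ := 2 * MP + 2 * MQ * ‖aeval A P * B‖ + 1 with hN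
  have hN0 : 0 < N := by positivity
  have := hfin (δ / N) (by positivity)
  refine this.trans ?_
  have h4 : δ / N * (2 * MP + 2 * MQ * ‖aeval A P * B‖) ≤ δ := by
    rw [div_mul_eq_mul_div, div_le_iff₀ hN0]
    nlinarith
  linarith

end Vale.Agent.P123.H880
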