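import Mathlib

/-! # P123: numerical range and rational functions -/

open Polynomial

namespace Vale.Agent.P123.H880

/-- The numerical range `W(A) = {⟨Ax, x⟩ : ‖x‖ = 1}`. -/
def W {H : Type*} [NormedAddCommGroup H] [InnerProductSpace ℂ H] (A : H →L[ℂ] H) : Set ℂ :=
  {z : ℂ | ∃ x : H, ‖x‖ = 1 ∧ inner ℂ x (A x) = z}

/-- `Q` has no zero in the closure of the numerical range. -/
def NoZero {H : Type*} [NormedAddCommGroup H] [InnerProductSpace ℂ H] (A : H →L[ℂ] H)
    (Q : ℂ[X]) : Prop := ∀ z ∈ closure (W A), Q.eval z ≠ 0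

/-- The supremum of `|P/Q|` over the numerical range. -/
noncomputable def supRat {H : Type*} [NormedAddCommGroup H] [InnerProductSpace ℂ H]
    (A : H →L[ℂ] H) (P Q : ℂ[X]) : ℝ := sSup ((fun z => ‖P.eval z / Q.eval z‖) '' W A)

/-- `C` is a constant in Crouzeix's inequality for all rational functions `P/Q` without poles in
the closure of the numerical range, for all bounded operators on all nonzero Hilbert spaces. -/
def RatConst.{u} (C : ℝ) : Prop := ∀ (H : Type u) [NormedAddCommGroup H]
  [InnerProductSpace ℂ H] [CompleteSpace H] [Nontrivial H] (A : H →L[ℂ] H) (P Q : ℂ[X]),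
  NoZero A Q → ‖aeval A P * Ring.inverse (aeval A Q)‖ ≤ C * supRat A P Q

end Vale.Agent.P123.H880
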